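import Vale.Agent.P230.Bdl.B3

/-!
# P230: origin-symmetric bodies close to the ball with covering density at least `c n log n`
-/

namespace Vale.Agent.P230.H826

open MeasureTheory Vale.Agent.P230.LB
open scoped Pointwise

section body

variable {n : ℕ} {Zc : Finset (E n)} {ε : ℝ} {T : Type} [Fintype T] (a : Atoms n Zc ε T)
  (J : Finset T)

/-- the symmetric random body -/
def sbody : Set (E n) := Stmt.body a J ∩ -Stmt.body a J

theorem mem_sbody {w : E n} :
    w ∈ sbody a J ↔ ‖w‖ ≤ 1 - eta n ∧ ∀ τ ∈ J, |(inner ℝ w (a.u τ) : ℝ)| ≤ rho - eta n := by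
  unfold sbody Stmt.body
  rw [Set.mem_inter_iff, Set.mem_neg]
  simp only [Set.mem_ofPred_eq, norm_neg, inner_neg_left, abs_le]
  constructor
  · rintro ⟨⟨h1, h2⟩, -, h3⟩
    exact ⟨h1, fun τ hτ => ⟨by linarith only [h3 τ hτ], h2 τ hτ⟩⟩
  · rintro ⟨h1, h2⟩
    exact ⟨⟨h1, fun τ hτ => (h2 τ hτ).2⟩, h1, fun τ hτ => by linarith only [(h2 τ hτ).1]⟩

theorem sbody_neg : -sbody a J = sbody a J := by
  unfold sbody
  rw [Set.inter_neg, neg_neg, Set.inter_comm]

theorem sbody_sub : sbody a J ⊆ Stmt.body a J := Set.inter_subset_left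

theorem sbody_convex : Convex ℝ (sbody a J) :=
  (BodyM.body_convex a J).inter (BodyM.body_convex a J).neg

theorem sbody_compact : IsCompact (sbody a J) :=
  (BodyM.body_compact a J).inter (BodyM.body_compact a J).neg

theorem sbody_meas : MeasurableSet (sbody a J) := (sbody_compact a J).isClosed.measurableSet

theorem sbody_ball : Metric.closedBall (0 : E n) (rho - eta n) ⊆ sbody a J := by
  intro w hw
  rw [mem_closedBall_zero_iff] at hw
  rw [mem_sbody]
  refine ⟨?_, fun τ _ => ?_⟩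
  · have : rho ≤ 1 := by
      unfold rho
      norm_num
    linarith only [hw, this]
  · calc |(inner ℝ w (a.u τ) : ℝ)| ≤ ‖w‖ * ‖a.u τ‖ := abs_real_inner_le_norm _ _
      _ ≤ ‖w‖ * 1 := mul_le_mul_of_nonneg_left (a.u_le τ) (norm_nonneg _)
      _ ≤ rho - eta n := by linarith only [hw]

theorem point [DecidableEq T] (hE : Stmt.PrEmpty) {N : ℝ} (hN : 0 < N) (w : E n)
    (hw : ‖w‖ ≤ 1 - eta n) (hw1 : ‖w‖ ≤ 1)
    (h : ∀ w : E n, ‖w‖ ≤ 1 - eta n → N * vol (Cap w (rho - eta n - ε)) ≤ 1) :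
    Real.exp (-2) ≤
      ∑ J : Finset T, wt (pp N a) J * (sbody a J).indicator (fun _ => (1 : ℝ)) w := by
  classical
  obtain ⟨R1, hR1⟩ : ∃ R : Finset T,
      R = Finset.univ.filter (fun τ => rho - eta n < inner ℝ w (a.u τ)) := ⟨_, rfl⟩
  obtain ⟨R2, hR2⟩ : ∃ R : Finset T,
      R = Finset.univ.filter (fun τ => rho - eta n < inner ℝ (-w) (a.u τ)) := ⟨_, rfl⟩
  have h1 : ∀ J : Finset T, w ∈ sbody a J ↔ Disjoint J (R1 ∪ R2) := by
    intro J
    rw [Finset.disjoint_left, mem_sbody]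
    constructor
    · intro hJ τ hτ hτ2
      have h3 := abs_le.1 (hJ.2 τ hτ)
      rw [hR1, hR2, Finset.mem_union, Finset.mem_filter, Finset.mem_filter, inner_neg_left] at hτ2
      rcases hτ2 with h4 | h4
      · exact absurd h4.2 (not_lt.2 h3.2)
      · exact absurd h4.2 (not_lt.2 (by linarith only [h3.1]))
    · intro hJ
      refine ⟨hw, fun τ hτ => ?_⟩
      have h3 := hJ hτ
      rw [hR1, hR2, Finset.mem_union, Finset.mem_filter, Finset.mem_filter, inner_neg_left,
        not_or] at h3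
      simp only [Finset.mem_univ, true_and, not_lt] at h3
      exact abs_le.2 ⟨by linarith only [h3.2], h3.1⟩
  have h2 : ∑ J : Finset T, wt (pp N a) J * (sbody a J).indicator (fun _ => (1 : ℝ)) w =
      Pr (pp N a) (fun J => Disjoint J (R1 ∪ R2)) := by
    unfold Pr
    refine Finset.sum_congr rfl fun J _ => ?_
    by_cases hJ : w ∈ sbody a J
    · rw [Set.indicator_of_mem hJ, if_pos ((h1 J).1 hJ), mul_one]
    · rw [Set.indicator_of_notMem hJ, if_neg (fun hc => hJ ((h1 J).2 hc)), mul_zero]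
  rw [h2, hE T (pp N a) (R1 ∪ R2)]
  have h3 : ∏ τ ∈ R1 ∪ R2, (1 - pp N a τ) = Real.exp (-(N * ∑ τ ∈ R1 ∪ R2, a.m τ)) := by
    rw [Finset.mul_sum, ← Finset.sum_neg_distrib, Real.exp_sum]
    refine Finset.prod_congr rfl fun τ _ => ?_
    unfold pp
    ring
  rw [h3, Real.exp_le_exp]
  have h4 : ∑ τ ∈ R1, a.m τ ≤ vol (Cap w (rho - eta n - ε)) := by
    have h5 := a.half w hw1 (rho - eta n)
    refine le_trans (le_of_eq ?_) h5
    rw [hR1, Finset.sum_filter]
  have h4' : ∑ τ ∈ R2, a.m τ ≤ vol (Cap (-w) (rho - eta n - ε)) := by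
    have h5 := a.half (-w) (by rw [norm_neg]; exact hw1) (rho - eta n)
    refine le_trans (le_of_eq ?_) h5
    rw [hR2, Finset.sum_filter]
  have h5 : ∑ τ ∈ R1 ∪ R2, a.m τ ≤ ∑ τ ∈ R1, a.m τ + ∑ τ ∈ R2, a.m τ := by
    rw [← Finset.sum_union_inter]
    have := Finset.sum_nonneg (s := R1 ∩ R2) (fun τ _ => a.m_nonneg τ)
    linarith only [this]
  have h6 := mul_le_mul_of_nonneg_left h4 hN.le
  have h6' := mul_le_mul_of_nonneg_left h4' hN.le
  have h7 := mul_le_mul_of_nonneg_left h5 hN.le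
  have h8 := h w hw
  have h9 := h (-w) (by rw [norm_neg]; exact hw)
  rw [mul_add] at h7
  linarith only [h6, h6', h7, h8, h9]

theorem sbody_fin : volume (sbody a J) ≠ ⊤ := (sbody_compact a J).measure_lt_top.ne

/-- expected volume -/
theorem expVolS [DecidableEq T] (hE : Stmt.PrEmpty) (hn : 2 ≤ n) {N : ℝ} (hN : 0 < N)
    (h : ∀ w : E n, ‖w‖ ≤ 1 - eta n → N * vol (Cap w (rho - eta n - ε)) ≤ 1) :
    Real.exp (-2) / 2 * vol (B n) ≤ ∑ J : Finset T, wt (pp N a) J * vol (sbody a J) := by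
  have hn' : (2 : ℝ) ≤ n := by exact_mod_cast hn
  have hη0 : 0 < eta n := by unfold eta; positivity
  have hint : ∀ J : Finset T, Integrable ((sbody a J).indicator (fun _ => (1 : ℝ))) := by
    intro J
    refine IntegrableOn.integrable_indicator ?_ (sbody_meas a J)
    exact integrableOn_const (sbody_fin a J)
  have h1 : ∀ J : Finset T, vol (sbody a J) =
      ∫ w, (sbody a J).indicator (fun _ => (1 : ℝ)) w := by
    intro J
    rw [integral_indicator (sbody_meas a J), setIntegral_const]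
    simp only [vol, Measure.real, smul_eq_mul, mul_one]
  have h2 : ∑ J : Finset T, wt (pp N a) J * vol (sbody a J) =
      ∫ w, ∑ J : Finset T, wt (pp N a) J * (sbody a J).indicator (fun _ => (1 : ℝ)) w := by
    rw [integral_finsetSum _ (fun J _ => (hint J).const_mul _)]
    refine Finset.sum_congr rfl fun J _ => ?_
    rw [h1 J, integral_const_mul]
  have hSm : MeasurableSet {w : E n | ‖w‖ ≤ 1 - eta n} :=
    (isClosed_le continuous_norm continuous_const).measurableSet
  have hSf : volume {w : E n | ‖w‖ ≤ 1 - eta n} ≠ ⊤ := by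
    refine ne_top_of_le_ne_top
      (measure_closedBall_lt_top (x := (0 : E n)) (r := 1 - eta n)).ne (measure_mono ?_)
    intro u hu
    simpa only [Metric.mem_closedBall, dist_zero_right, Set.mem_ofPred_eq] using hu
  have h3 : ∫ w, {w : E n | ‖w‖ ≤ 1 - eta n}.indicator (fun _ => Real.exp (-2)) w ≤
      ∫ w, ∑ J : Finset T, wt (pp N a) J * (sbody a J).indicator (fun _ => (1 : ℝ)) w := by
    refine integral_mono ?_ ?_ ?_
    · exact (integrableOn_const hSf).integrable_indicator hSm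
    · exact integrable_finsetSum _ (fun J _ => (hint J).const_mul _)
    · intro w
      by_cases hwS : ‖w‖ ≤ 1 - eta n
      · have hm : w ∈ {w : E n | ‖w‖ ≤ 1 - eta n} := hwS
        simp only [Set.indicator_of_mem hm]
        exact point a hE hN w hwS (by linarith only [hη0, hwS]) h
      · have hm : w ∉ {w : E n | ‖w‖ ≤ 1 - eta n} := hwS
        simp only [Set.indicator_of_notMem hm]
        refine le_of_eq (Eq.symm (Finset.sum_eq_zero fun J _ => ?_))
        rw [Set.indicator_of_notMem (fun hc => hwS ((mem_sbody a J).1 hc).1), mul_zero]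
  rw [h2]
  refine le_trans ?_ h3
  rw [integral_indicator hSm, setIntegral_const]
  have h4 := normV_vol_ball (n := n) (by omega)
  have h5 : (volume.real {w : E n | ‖w‖ ≤ 1 - eta n}) = vol {w : E n | ‖w‖ ≤ 1 - eta n} := rfl
  rw [h5, smul_eq_mul]
  have h6 := mul_le_mul_of_nonneg_right h4 (Real.exp_pos (-2)).le
  calc _ = 1 / 2 * vol (B n) * Real.exp (-2) := by ring
    _ ≤ _ := h6

end body

/-- first moment and union bound -/
theorem exists_goodS {T : Type} [Fintype T] [DecidableEq T] {p : T → ℝ} (h0 : ∀ τ, 0 ≤ p τ)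
    (h1 : ∀ τ, p τ ≤ 1) (hW : ∑ J : Finset T, wt p J = 1) {ι : Type} [Fintype ι]
    (F : ι → Finset T → Prop) (q : ℝ) (hF : ∀ i, Pr p (F i) ≤ q)
    (hq : (Fintype.card ι : ℝ) * q ≤ 1 / 100) (v : Finset T → ℝ) {V : ℝ} (hV : 0 < V)
    (hv : ∀ J, v J ≤ V) (hE : Real.exp (-2) / 2 * V ≤ ∑ J : Finset T, wt p J * v J) :
    ∃ J, (∀ i, ¬ F i J) ∧ V / 20 ≤ v J := by
  classical
  by_contra hcon
  push Not at hcon
  have hw := BodyM.wt_nonneg h0 h1
  have key : ∀ J, wt p J * v J ≤ V * (∑ i, if F i J then wt p J else 0) + V / 20 * wt p J := by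
    intro J
    by_cases hJ : ∃ i, F i J
    · obtain ⟨i, hi⟩ := hJ
      have h2 : wt p J ≤ ∑ i, if F i J then wt p J else 0 := by
        calc wt p J = if F i J then wt p J else 0 := by rw [if_pos hi]
          _ ≤ ∑ i, if F i J then wt p J else 0 :=
            Finset.single_le_sum (f := fun i => if F i J then wt p J else 0)
              (fun i _ => by
                split_ifs
                · exact hw J
                · exact le_rfl) (Finset.mem_univ i)
      have h3 : wt p J * v J ≤ wt p J * V := mul_le_mul_of_nonneg_left (hv J) (hw J)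
      have h4 := mul_le_mul_of_nonneg_left h2 hV.le
      have h5 : 0 ≤ V / 20 * wt p J := mul_nonneg (by positivity) (hw J)
      linarith only [h5, h4, h3]
    · push Not at hJ
      have h2 := hcon J hJ
      have h3 : wt p J * v J ≤ wt p J * (V / 20) := mul_le_mul_of_nonneg_left h2.le (hw J)
      have h4 : 0 ≤ V * (∑ i, if F i J then wt p J else 0) := by
        apply mul_nonneg hV.le
        apply Finset.sum_nonneg
        intro i _
        split_ifs
        · exact hw J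
        · exact le_rfl
      linarith only [h4, h3]
  have hsum : ∑ J : Finset T, wt p J * v J ≤ V * ((Fintype.card ι : ℝ) * q) + V / 20 := by
    calc ∑ J : Finset T, wt p J * v J
        ≤ ∑ J : Finset T, (V * (∑ i, if F i J then wt p J else 0) + V / 20 * wt p J) :=
          Finset.sum_le_sum fun J _ => key J
      _ = V * (∑ i, Pr p (F i)) + V / 20 := by
          rw [Finset.sum_add_distrib, ← Finset.mul_sum, ← Finset.mul_sum, hW, mul_one,
            Finset.sum_comm]
          rfl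
      _ ≤ V * (∑ _i : ι, q) + V / 20 := by
          gcongr with i _
          exact hF i
      _ = V * ((Fintype.card ι : ℝ) * q) + V / 20 := by
          rw [Finset.sum_const, nsmul_eq_mul, Finset.card_univ]
  have he : (0.065 : ℝ) ≤ Real.exp (-2) / 2 := by
    have h2 := Real.exp_one_lt_d9
    have h3 : (0.13 : ℝ) ≤ Real.exp (-2) := by
      have h4 : Real.exp 2 = Real.exp 1 * Real.exp 1 := by rw [← Real.exp_add]; norm_num
      have h5 : Real.exp 2 ≤ 2.719 * 2.719 := by
        rw [h4]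
        exact mul_le_mul (by linarith only [h2]) (by linarith only [h2]) (Real.exp_pos 1).le
          (by norm_num)
      rw [Real.exp_neg, ← one_div, le_div_iff₀ (Real.exp_pos 2)]
      linarith only [h5]
    linarith only [h3]
  have h6 : V * ((Fintype.card ι : ℝ) * q) ≤ V * (1 / 100) := mul_le_mul_of_nonneg_left hq hV.le
  have h7 : (0.065 : ℝ) * V ≤ Real.exp (-2) / 2 * V := mul_le_mul_of_nonneg_right he hV.le
  linarith only [h7, h6, hsum, hE, hV]

/-- existence of a symmetric body close to the ball -/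
def ExistsBodyS : Prop :=
  ∃ n0 : ℕ, ∀ n : ℕ, n0 ≤ n → ∀ Gr : Finset (E n), (Gr.card : ℝ) ≤ (1 + 8 * (n : ℝ)) ^ n →
    ∃ K : Set (E n), Convex ℝ K ∧ IsCompact K ∧ -K = K ∧
      Metric.closedBall 0 (rho - eta n) ⊆ K ∧
      (∀ w ∈ K, ‖w‖ ≤ 1 - eta n) ∧ vol (B n) / 20 ≤ vol K ∧
      ∀ X ⊆ Gr, (X.card : ℝ) ≤ m0 n →
        vol (B n) / 2 ≤ vol {y : E n | ‖y‖ ≤ 1 ∧ GoodPt n X y} →
        ∃ y : E n, ‖y‖ ≤ 1 ∧ ∀ x ∈ X, ∀ v : E n, ‖v‖ ≤ eta n → y - x - v ∉ K

open BodyM in
theorem existsBodyS (hC : Stmt.ClusterLemma) (hF : Stmt.FixedX) (hA : Stmt.ExistsAtoms)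
    (hN : Stmt.ExistsNorm) (hE : Stmt.PrEmpty) (hW : Stmt.WtSum) (hU : Stmt.NumUnion) :
    ExistsBodyS := by
  classical
  obtain ⟨nC, hC⟩ := hC
  obtain ⟨nF, hF⟩ := hF
  obtain ⟨nU, hU⟩ := hU
  refine ⟨max (max nC nF) (max nU 2), fun n hn Gr hGr => ?_⟩
  have hnC : nC ≤ n := le_trans (le_trans (le_max_left _ _) (le_max_left _ _)) hn
  have hnF : nF ≤ n := le_trans (le_trans (le_max_right _ _) (le_max_left _ _)) hn
  have hnU : nU ≤ n := le_trans (le_trans (le_max_left _ _) (le_max_right _ _)) hn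
  have hn2 : 2 ≤ n := le_trans (le_trans (le_max_right _ _) (le_max_right _ _)) hn
  have hn2' : (2 : ℝ) ≤ n := by exact_mod_cast hn2
  obtain ⟨S, hS⟩ : ∃ S : Finset (Finset (E n)), ∀ X, X ∈ S ↔ X ⊆ Gr ∧ (X.card : ℝ) ≤ m0 n ∧
      vol (B n) / 2 ≤ vol {y : E n | ‖y‖ ≤ 1 ∧ GoodPt n X y} := by
    refine ⟨Gr.powerset.filter (fun X => (X.card : ℝ) ≤ m0 n ∧
      vol (B n) / 2 ≤ vol {y : E n | ‖y‖ ≤ 1 ∧ GoodPt n X y}), fun X => ?_⟩
    rw [Finset.mem_filter, Finset.mem_powerset]
  have hD : ∀ X : S, Nonempty (ClusterData n X.1) := fun X =>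
    hC n hnC X.1 ((hS X.1).1 X.2).2.1 ((hS X.1).1 X.2).2.2
  let D : ∀ X : S, ClusterData n X.1 := fun X => (hD X).some
  obtain ⟨Zc, hZc⟩ : ∃ Zc : Finset (E n), ∀ X : S, ∀ g, ∀ y ∈ (D X).Y g, Zof X.1 y ⊆ Zc := by
    refine ⟨Finset.univ.biUnion fun X : S => Finset.univ.biUnion fun g =>
      ((D X).Y g).biUnion fun y => Zof X.1 y, fun X g y hy z hz => ?_⟩
    rw [Finset.mem_biUnion]
    refine ⟨X, Finset.mem_univ _, ?_⟩
    rw [Finset.mem_biUnion]
    refine ⟨g, Finset.mem_univ _, ?_⟩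
    rw [Finset.mem_biUnion]
    exact ⟨y, hy, hz⟩
  obtain ⟨N, hNN, hNw⟩ := hN n hn2
  have hε : (0 : ℝ) < 1 / (10 ^ 6 * n) := by (clear * - hn2; positivity)
  obtain ⟨k, ⟨a⟩⟩ := hA n Zc (1 / (10 ^ 6 * n)) hε
  have hp0 := pp_nonneg hNN.1 a
  have hp1 := pp_le_one (N := N) a
  have hcard : S.card ≤ (Gr.card + 1) ^ ⌊m0 n⌋₊ := by
    apply card_small
    intro X hX
    have h1 := (hS X).1 hX
    exact ⟨h1.1, Nat.le_floor h1.2.1⟩
  have hm0 : (0 : ℝ) ≤ m0 n := by
    unfold m0
    positivity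
  have hunion := hU n hnU Gr.card ⌊m0 n⌋₊ hGr (Nat.floor_le hm0)
  set q := Real.exp (-((7 : ℝ) ^ n * Real.exp (-((n : ℝ) + 2)))) with hq
  have hqc : (Fintype.card S : ℝ) * q ≤ 1 / 100 := by
    refine le_trans ?_ hunion
    apply mul_le_mul_of_nonneg_right _ (Real.exp_pos _).le
    rw [Fintype.card_coe]
    calc (S.card : ℝ) ≤ (((Gr.card + 1) ^ ⌊m0 n⌋₊ : ℕ) : ℝ) := by exact_mod_cast hcard
      _ = ((Gr.card : ℝ) + 1) ^ ⌊m0 n⌋₊ := by push_cast; ring
  obtain ⟨J, hJ1, hJ2⟩ := exists_goodS hp0 hp1 (hW (Fin k) (pp N a))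
    (fun (X : S) (J : Finset (Fin k)) => ∀ g, ∀ y ∈ (D X).Y g, ∃ z ∈ Zof X.1 y, ∀ τ ∈ J,
        ¬ rho < inner ℝ z (a.u τ)) q
    (fun X => hF n hnF N hNN X.1 ((hS X.1).1 X.2).2.1 (D X) Zc (hZc X) _ (Fin k) a)
    hqc (fun J => vol (sbody a J)) (vol_B_pos n)
    (fun J => vol_le_B ((sbody_sub a J).trans (body_sub_B a J hn2)))
    (expVolS a hE hn2 hNN.1 hNw)
  refine ⟨sbody a J, sbody_convex a J, sbody_compact a J, sbody_neg a J, sbody_ball a J,
    fun w hw => ((mem_sbody a J).1 hw).1, hJ2, fun X hXG hXc hXv => ?_⟩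
  have hXS : X ∈ S := (hS X).2 ⟨hXG, hXc, hXv⟩
  have h1 := hJ1 ⟨X, hXS⟩
  push Not at h1
  obtain ⟨g, y, hy, hz⟩ := h1
  refine ⟨y, (D ⟨X, hXS⟩).inB g y hy, fun x hx v hv hmem => ?_⟩
  exact body_miss a J hn2 hz x hx v hv (sbody_sub a J hmem)

/-- the symmetric lower bound, for all large `n` -/
theorem lower_of (hB : ExistsBodyS) (hW : Stmt.Window) (hN : Stmt.NetLemma) :
    ∃ n0 : ℕ, ∀ n : ℕ, n0 ≤ n → ∃ K : Set (E n), Convex ℝ K ∧ IsCompact K ∧ -K = K ∧
      Metric.closedBall 0 0.9999 ⊆ K ∧ K ⊆ Metric.closedBall 0 1 ∧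
      ENNReal.ofReal (1 / 10 ^ 11 * n * Real.log n) ≤ thetaT K := by
  obtain ⟨n1, hB⟩ := hB
  obtain ⟨n2, hW⟩ := hW
  refine ⟨max n1 (max n2 10000), fun n hn => ?_⟩
  have hn1 : n1 ≤ n := (le_max_left _ _).trans hn
  have hn2 : n2 ≤ n := ((le_max_left _ _).trans (le_max_right _ _)).trans hn
  have hn4 : 10000 ≤ n := ((le_max_right _ _).trans (le_max_right _ _)).trans hn
  have hn3 : 1 ≤ n := by omega
  have hnR : (1 : ℝ) ≤ n := by exact_mod_cast hn3
  have hnR4 : (10000 : ℝ) ≤ n := by exact_mod_cast hn4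
  have heta : 0 < eta n := by unfold eta; positivity
  have heta4 : eta n ≤ 1 / 20000 := by
    unfold eta
    apply one_div_le_one_div_of_le (by norm_num)
    linarith only [hnR4]
  have hlog : 0 ≤ (n : ℝ) * Real.log n := mul_nonneg (by linarith only []) (Real.log_nonneg hnR)
  obtain ⟨Gr, hGc, -, hGn⟩ := hN n hn3 2 (eta n) (by norm_num) heta
  have hGc' : (Gr.card : ℝ) ≤ (1 + 8 * (n : ℝ)) ^ n := by
    refine hGc.trans (le_of_eq ?_)
    congr 1
    unfold eta
    field_simp
    ring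
  obtain ⟨K, hKc, hKk, hKs, hKb, hKn, hKv, hK⟩ := hB n hn1 Gr hGc'
  refine ⟨K, hKc, hKk, hKs, ?_, ?_, ?_⟩
  · refine (Metric.closedBall_subset_closedBall ?_).trans hKb
    unfold rho
    norm_num
    linarith only [heta4]
  · intro w hw
    rw [mem_closedBall_zero_iff]
    linarith only [hKn w hw, heta]
  refine le_iInf fun X => le_iInf fun hX => le_iInf fun hcov => ?_
  by_contra hlt
  rw [not_le] at hlt
  have hBp := wb_volB_pos (n := n)
  have hKfin : volume K ≠ ⊤ := hKk.measure_lt_top.ne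
  have hup : upDens X < ENNReal.ofReal (1 / 10 ^ 9 * n * Real.log n / vol (B n)) := by
    by_contra hge
    rw [not_lt] at hge
    refine absurd hlt (not_lt.2 ?_)
    have h1 : ENNReal.ofReal (vol (B n) / 20) ≤ volume K := by
      rw [← ENNReal.ofReal_toReal hKfin]
      exact ENNReal.ofReal_le_ofReal hKv
    refine le_trans ?_ (mul_le_mul' h1 hge)
    rw [← ENNReal.ofReal_mul (by (clear * - hBp; positivity))]
    refine ENNReal.ofReal_le_ofReal ?_
    have e : vol (B n) / 20 * (1 / 10 ^ 9 * n * Real.log n / vol (B n)) =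
        1 / 20 * (1 / 10 ^ 9) * (n * Real.log n) := by
      (clear * - hBp hn3; field_simp)
    rw [e]
    linarith only [hlog]
  obtain ⟨t, X', hX'G, hX'c, hX'n, hX'v⟩ := hW n hn2 X hX hup Gr hGn
  obtain ⟨y, hy1, hy2⟩ := hK X' hX'G hX'c hX'v
  have hyt : y + t ∈ K + X := by rw [hcov]; trivial
  obtain ⟨k, hk, x, hx, hkx⟩ := Set.mem_add.1 hyt
  have hkn := hKn k hk
  have hxt : x - t = y - k := by
    have : x = y + t - k := by rw [← hkx]; abel
    rw [this]
    abel
  have h2 : ‖x - t‖ ≤ 2 := by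
    rw [hxt]
    exact (norm_sub_le _ _).trans (by linarith only [heta, hy1, hkn])
  obtain ⟨x', hx', hx'n⟩ := hX'n x hx h2
  refine hy2 x' hx' ((x - t) - x') hx'n ?_
  have e : y - x' - ((x - t) - x') = k := by
    rw [hxt]
    abel
  rw [e]
  exact hk

/-- In every dimension there is an origin-symmetric convex body `K`, `0.9999 B ⊆ K ⊆ B`, whose
covering density is at least `c n log n`. -/
theorem lower : ∃ c : ℝ, 0 < c ∧ ∀ n : ℕ, 2 ≤ n → ∃ K : Set (E n), Convex ℝ K ∧ IsCompact K ∧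
      -K = K ∧ Metric.closedBall 0 0.9999 ⊆ K ∧ K ⊆ Metric.closedBall 0 1 ∧
      ENNReal.ofReal (c * n * Real.log n) ≤ thetaT K := by
  obtain ⟨n0, h⟩ := lower_of
    (existsBodyS (clusterLemma numCluster) fixedX_main existsAtoms
      (existsNorm capUpper capLowerPow) prEmpty wtSum numUnion)
    (window (windowAvg avgLemma)) netLemma
  have hpos : ∀ m : ℕ, 0 ≤ (m : ℝ) * Real.log m := fun m =>
    mul_nonneg (Nat.cast_nonneg m) (Real.log_natCast_nonneg m)
  set d : ℝ := 1 / ((n0 : ℝ) * Real.log n0 + 1) with hd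
  have hd0 : 0 < d := by
    have := hpos n0
    (clear * -; positivity)
  refine ⟨min (1 / 10 ^ 11) d, lt_min (by norm_num) hd0, fun n hn => ?_⟩
  rcases le_or_gt n0 n with hle | hlt
  · obtain ⟨K, h1, h2, h3, h4, h5, h6⟩ := h n hle
    refine ⟨K, h1, h2, h3, h4, h5, le_trans (ENNReal.ofReal_le_ofReal ?_) h6⟩
    have h3 := hpos n
    rw [mul_assoc, mul_assoc]
    exact mul_le_mul_of_nonneg_right (min_le_left _ _) h3
  · refine ⟨Metric.closedBall 0 1, convex_closedBall _ _, isCompact_closedBall _ _, ?_,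
      Metric.closedBall_subset_closedBall (by norm_num), subset_rfl, ?_⟩
    · ext w
      rw [Set.mem_neg, mem_closedBall_zero_iff, mem_closedBall_zero_iff, norm_neg]
    · have h1 : (1 : ENNReal) ≤ thetaT (Metric.closedBall (0 : E n) 1) := by
        refine le_iInf fun X => le_iInf fun hX => le_iInf fun hcov => ?_
        refine side_one_le (d := 1) zero_le_one ?_ hX hcov
        intro w hw
        rwa [mem_closedBall_zero_iff] at hw
      refine le_trans ?_ h1
      rw [← ENNReal.ofReal_one]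
      apply ENNReal.ofReal_le_ofReal
      have h3 := hpos n
      have h4 : (n : ℝ) * Real.log n ≤ n0 * Real.log n0 := by
        have h5 : (n : ℝ) ≤ n0 := by exact_mod_cast hlt.le
        have h6 : (0 : ℝ) < n := by
          have : 0 < n := by omega
          exact_mod_cast this
        exact mul_le_mul h5 (Real.log_le_log h6 h5) (Real.log_natCast_nonneg n)
          (by (clear * -; positivity))
      have h7 : (0 : ℝ) < n0 * Real.log n0 + 1 := by
        have := hpos n0
        (clear * -; positivity)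
      calc min (1 / 10 ^ 11) d * n * Real.log n = min (1 / 10 ^ 11) d * (n * Real.log n) := by
            ring
        _ ≤ d * (n * Real.log n) := mul_le_mul_of_nonneg_right (min_le_right _ _) h3
        _ ≤ d * (n0 * Real.log n0 + 1) := by
            apply mul_le_mul_of_nonneg_left _ hd0.le
            linarith only [h4]
        _ = 1 := by
            rw [hd]
            (clear * -; field_simp)

end Vale.Agent.P230.H826
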